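import Vale.Agent.P223.H391.WP5

/-! Comparison: `|u| ≤ f` implies `|g u| ≤ w` if `-Δ w + (Scal / 4 + m²) w ≥ f`. -/

namespace Vale.Agent.P223.H391

open scoped ContDiff InnerProductSpace Topology
open MeasureTheory Vale.Agent.P223.H Vale.Agent.P223.X Vale.Agent.P223.H566

section
variable {n : ℕ} {M X Γ I V H : Type} [TopologicalSpace M] [TopologicalSpace X]
  [Group Γ] [MulAction Γ X] [Fintype I] [T2Space X] [ConnectedSpace X] [T2Space M]
  [MeasurableSpace X] [BorelSpace X] [NormedAddCommGroup V] [InnerProductSpace ℂ V]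
  [FiniteDimensional ℂ V] [NormedAddCommGroup H] [InnerProductSpace ℂ H] [CompleteSpace H]
  {c : Ctx n M X Γ I V H}

theorem supA' (hL : SpecLocal) {s : ℝ} {w : X → ℝ} {m δ : ℝ} {f : ℝ → ℝ}
    (hw : Gst c.C c.G s w) (hf : Tst δ f) {k : X → ℝ} (hk : Continuous k)
    (hkw : ∀ (γ : Γ) i y, (k (γ • c.C.ψ i y) - m ^ 2) * w (γ • c.C.ψ i y) ≤
      -lap (c.G i) (c.C.rep w γ i) y +
        Vale.Agent.P223.H.scal (c.G i) y / 4 * w (γ • c.C.ψ i y))
    (φ : Core c.S) (hsm : c.C.Ck ∞ (fun x => f (H566.qf c.C w (φ : Raw Γ I n V) x))) :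
    ∫ x, k x * (f (H566.qf c.C w (φ : Raw Γ I n V) x) * nm c.C (φ : Raw Γ I n V) x ^ 2) ∂c.μ ≤
    m ^ 2 * (⟪c.E.e φ, c.E.e (c.S.mC _ hsm φ)⟫_ℂ).re +
      (⟪c.E.e (c.S.DC φ), c.E.e (c.S.DC (c.S.mC _ hsm φ))⟫_ℂ).re := by
  have hfin := finComp c.S.met c.vol
  have hG := c.S.met
  -- the functions on `X`
  set q : X → ℝ := H566.qf c.C w (φ : Raw Γ I n V) with hq
  set F : X → ℝ := fun x => prim f (q x) with hF
  set W : X → ℝ := fun x => w x ^ 2 with hW
  have hFs : c.C.Ck ∞ F := supSm n M X Γ I V c.C c.G c.K c.S w (prim f) φ hw.smooth hw.pos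
    (prim_smooth hf.smooth)
  have hWs : c.C.Ck ∞ W := fun γ i => (hw.smooth γ i).pow 2
  have h1s : c.C.Ck ∞ (fun _ => (1 : ℝ)) := fun γ i => contDiff_const
  have hFWs : c.C.Ck ∞ (fun x => F x * W x) := fun γ i => (hFs γ i).mul (hWs γ i)
  have hq0 : ∀ x, x ∉ tsupport (nm c.C (φ : Raw Γ I n V)) → q x = 0 := by
    intro x hx
    rw [hq]
    unfold H566.qf
    rw [image_eq_zero_of_notMem_tsupport hx]; simp
  have hFc : HasCompactSupport F := by
    refine HasCompactSupport.intro φ.2.nm_supp.isCompact fun x hx => ?_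
    change prim f (q x) = 0
    rw [hq0 x hx]
    exact prim_zero hf.pos.le hf.zero hf.pos.le
  have hFWc : HasCompactSupport (fun x => F x * W x) := hFc.mul_right
  have hck2 : ∀ {g : X → ℝ}, c.C.Ck ∞ g → c.C.Ck 2 g := fun hg γ i => contDiff_infty.1 (hg γ i) 2
  have hcont : ∀ {g : X → ℝ}, c.C.Ck ∞ g → Continuous g := fun hg =>
    Ck_continuous c.C fun γ i => contDiff_infty.1 (hg γ i) 0
  have hcl : ∀ {g : X → ℝ}, c.C.Ck ∞ g → Continuous (lapX c.C c.G g) := fun {g} hg =>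
    Ck_continuous c.C fun γ i => (Ck_lapX hG (fun γ i => contDiff_infty.1 (hg γ i) 4) γ i).of_le
      (by norm_num)
  have hsl : ∀ {g : X → ℝ}, c.C.Ck ∞ g → HasCompactSupport g →
      HasCompactSupport (lapX c.C c.G g) :=
    fun {g} hg hc => HasCompactSupport.intro hc.isCompact fun x hx => lapX_zero hG hg hx
  -- integrals of Laplacians
  have i1 : ∫ x, lapX c.C c.G (fun x => F x * W x) x ∂c.μ = 0 := by
    have := greenX hG c.vol hFWs h1s hFWc
    have e : ∀ x, lapX c.C c.G (fun _ => (1 : ℝ)) x = 0 := fun x => by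
      rw [← pg_spec c.C x, lapX_eq hG (hck2 h1s)]
      have : c.C.rep (fun _ => (1 : ℝ)) (c.C.pg x) (c.C.pi x) = fun _ => 1 := rfl
      rw [this]
      unfold lap Vale.Agent.P223.H.pd
      simp
    simp only [e, mul_zero, integral_zero, mul_one] at this
    exact this.symm
  have i2 : ∫ x, F x * lapX c.C c.G W x ∂c.μ = ∫ x, lapX c.C c.G F x * W x ∂c.μ :=
    greenX hG c.vol hFs hWs hFc
  have n1 : Integrable (lapX c.C c.G (fun x => F x * W x)) c.μ :=
    (hcl hFWs).integrable_of_hasCompactSupport (hsl hFWs hFWc)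
  have n2 : Integrable (fun x => F x * lapX c.C c.G W x) c.μ :=
    ((hcont hFs).mul (hcl hWs)).integrable_of_hasCompactSupport hFc.mul_right
  have n3 : Integrable (fun x => lapX c.C c.G F x * W x) c.μ :=
    ((hcl hFs).mul (hcont hWs)).integrable_of_hasCompactSupport (hsl hFs hFc).mul_right
  -- the products
  set N : X → ℝ := nm c.C (φ : Raw Γ I n V) with hN
  set R : X → ℝ := fun x => (hp c.C (c.S.DC (c.S.DC φ) : Raw Γ I n V) (φ : Raw Γ I n V) x).re with hR
  have hNc : Continuous N := φ.2.continuous_nm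
  have hRc : Continuous R := Complex.continuous_re.comp
    ((c.S.DC (c.S.DC φ)).2.continuous_hp φ.2)
  have hfc : Continuous (fun x => f (q x)) := hcont hsm
  have hNs : HasCompactSupport N := φ.2.nm_supp
  have n4 : Integrable (fun x => f (q x) * N x ^ 2) c.μ := by
    refine (hfc.mul (hNc.pow 2)).integrable_of_hasCompactSupport ?_
    refine HasCompactSupport.intro hNs.isCompact fun x hx => ?_
    simp [image_eq_zero_of_notMem_tsupport hx]
  have n5 : Integrable (fun x => f (q x) * R x) c.μ := by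
    refine (hfc.mul hRc).integrable_of_hasCompactSupport ?_
    refine HasCompactSupport.intro hNs.isCompact fun x hx => ?_
    have h0 : N x = 0 := image_eq_zero_of_notMem_tsupport hx
    have h1 : ‖(φ : Raw Γ I n V) (c.C.pg x) (c.C.pi x) (c.C.py x)‖ = 0 := h0
    rw [norm_eq_zero] at h1
    simp [hR, hp, h1]
  have e1 : (⟪c.E.e φ, c.E.e (c.S.mC _ hsm φ)⟫_ℂ).re = ∫ x, f (q x) * N x ^ 2 ∂c.μ := by
    rw [c.E.ip]
    unfold ipr
    have h0 : ∀ x, hp c.C (φ : Raw Γ I n V) (c.S.mC _ hsm φ : Raw Γ I n V) x =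
        ((f (q x) * N x ^ 2 : ℝ) : ℂ) := by
      intro x
      change ⟪_, (f (q (c.C.pg x • c.C.ψ (c.C.pi x) (c.C.py x))) : ℂ) • _⟫_ℂ = _
      rw [inner_smul_right, pg_spec c.C x, inner_self_eq_norm_sq_to_K]
      push_cast
      rfl
    simp only [h0]
    rw [integral_complex_ofReal, Complex.ofReal_re]
  have e2 : (⟪c.E.e (c.S.DC φ), c.E.e (c.S.DC (c.S.mC _ hsm φ))⟫_ℂ).re =
      -∫ x, f (q x) * R x ∂c.μ := by
    have h0 := e_skew c.E hL c.vol (c.S.DC φ) (c.S.mC _ hsm φ)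
    have h1 : ⟪c.E.e (c.S.DC φ), c.E.e (c.S.DC (c.S.mC _ hsm φ))⟫_ℂ =
        -⟪c.E.e (c.S.DC (c.S.DC φ)), c.E.e (c.S.mC _ hsm φ)⟫_ℂ := by rw [h0, neg_neg]
    rw [h1, Complex.neg_re, c.E.ip]
    congr 1
    unfold ipr
    have h2 := Complex.reCLM.integral_comp_comm
      ((c.S.DC (c.S.DC φ)).2.integrable_hp (c.S.mC _ hsm φ).2 c.vol)
    simp only [Complex.reCLM_apply] at h2
    rw [← h2]
    congr 1
    funext x
    change (⟪_, (f (q (c.C.pg x • c.C.ψ (c.C.pi x) (c.C.py x))) : ℂ) • _⟫_ℂ).re = _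
    rw [inner_smul_right, pg_spec c.C x, Complex.re_ofReal_mul]
    rfl
  rw [e1, e2]
  -- the pointwise inequality
  have hpt : ∀ x, k x * (f (q x) * N x ^ 2) ≤ m ^ 2 * (f (q x) * N x ^ 2) -
      f (q x) * R x + 1 / 4 * (lapX c.C c.G (fun x => F x * W x) x +
        lapX c.C c.G F x * W x - F x * lapX c.C c.G W x) := by
    intro x
    rw [← pg_spec c.C x]
    set γ := c.C.pg x
    set i := c.C.pi x
    set y := c.C.py x
    rw [lapX_eq hG (hck2 hFWs), lapX_eq hG (hck2 hFs), lapX_eq hG (hck2 hWs)]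
    have g1 : ∀ z, N (γ • c.C.ψ i z) = ‖(φ : Raw Γ I n V) γ i z‖ := fun z => φ.2.nm_chart γ i z
    have g2 : ∀ z, q (γ • c.C.ψ i z) =
        ‖(φ : Raw Γ I n V) γ i z‖ ^ 2 / c.C.rep w γ i z ^ 2 := fun z => by
      change nm c.C (φ : Raw Γ I n V) (γ • c.C.ψ i z) ^ 2 / _ = _
      rw [φ.2.nm_chart]; rfl
    have g3 : R (γ • c.C.ψ i y) = (⟪dir c.K (c.G i) (c.S.β i) (dir c.K (c.G i) (c.S.β i)
        ((φ : Raw Γ I n V) γ i)) y, (φ : Raw Γ I n V) γ i y⟫_ℂ).re := by
      change (hp c.C _ _ (γ • c.C.ψ i y)).re = _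
      rw [(c.S.DC (c.S.DC φ)).2.hp_chart φ.2]
      rfl
    have g4 : c.C.rep (fun x => F x * W x) γ i = fun z =>
        prim f (‖(φ : Raw Γ I n V) γ i z‖ ^ 2 / c.C.rep w γ i z ^ 2) * c.C.rep w γ i z ^ 2 := by
      funext z
      change prim f (q (γ • c.C.ψ i z)) * _ = _
      rw [g2]; rfl
    have g5 : c.C.rep F γ i = fun z =>
        prim f (‖(φ : Raw Γ I n V) γ i z‖ ^ 2 / c.C.rep w γ i z ^ 2) := by
      funext z
      change prim f (q (γ • c.C.ψ i z)) = _
      rw [g2]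
    have g6 : c.C.rep W γ i = fun z => c.C.rep w γ i z ^ 2 := rfl
    have := locA hL c.K (hG.smooth i) (hG.pos i) (c.S.fr i) (φ.2.smooth γ i)
      (hw.smooth γ i) (fun z => hw.pos _) (m := m) hf y (hkw γ i y)
    rw [add_sub_cancel] at this
    rw [g4, g5, g6, g3, g1, g2]
    change _ ≤ m ^ 2 * _ - _ + 1 / 4 * (_ + _ * c.C.rep w γ i y ^ 2 - F (γ • c.C.ψ i y) * _)
    have g7 : F (γ • c.C.ψ i y) =
        prim f (‖(φ : Raw Γ I n V) γ i y‖ ^ 2 / c.C.rep w γ i y ^ 2) := congrFun g5 y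
    rw [g7]
    rw [mul_comm _ (c.C.rep w γ i y ^ 2)]
    exact this
  have n4' : Integrable (fun x => k x * (f (q x) * N x ^ 2)) c.μ := by
    refine (hk.mul (hfc.mul (hNc.pow 2))).integrable_of_hasCompactSupport ?_
    refine HasCompactSupport.intro hNs.isCompact fun x hx => ?_
    simp [image_eq_zero_of_notMem_tsupport hx]
  have hmono := integral_mono n4' (((n4.const_mul (m ^ 2)).sub n5).add
    (((n1.add n3).sub n2).const_mul (1 / 4))) hpt
  refine hmono.trans (le_of_eq ?_)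
  have j1 : ∫ x, (m ^ 2 * (f (q x) * N x ^ 2) - f (q x) * R x + 1 / 4 *
      (lapX c.C c.G (fun x => F x * W x) x + lapX c.C c.G F x * W x -
        F x * lapX c.C c.G W x)) ∂c.μ = m ^ 2 * (∫ x, f (q x) * N x ^ 2 ∂c.μ) -
        (∫ x, f (q x) * R x ∂c.μ) + 1 / 4 * ((∫ x, lapX c.C c.G (fun x => F x * W x) x ∂c.μ) +
        (∫ x, lapX c.C c.G F x * W x ∂c.μ) - ∫ x, F x * lapX c.C c.G W x ∂c.μ) := by
    have a1 : Integrable (fun x => m ^ 2 * (f (q x) * N x ^ 2) - f (q x) * R x) c.μ :=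
      (n4.const_mul (m ^ 2)).sub n5
    have a2 : Integrable (fun x => lapX c.C c.G (fun x => F x * W x) x +
        lapX c.C c.G F x * W x) c.μ := n1.add n3
    have a3 : Integrable (fun x => 1 / 4 * (lapX c.C c.G (fun x => F x * W x) x +
        lapX c.C c.G F x * W x - F x * lapX c.C c.G W x)) c.μ := (a2.sub n2).const_mul _
    rw [integral_add a1 a3, integral_sub (n4.const_mul _) n5, integral_const_mul,
      integral_const_mul, integral_sub a2 n2, integral_add n1 n3]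
  have j2 := j1
  rw [i1, i2] at j2
  refine Eq.trans ?_ (j2.trans (by ring))
  rfl


end

end Vale.Agent.P223.H391
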