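import Vale.Agent.P223.H391.HX4
import Vale.Agent.P223.H440.AllV
import Vale.Agent.P223.H66.Fin3
import Vale.Agent.P223.H691.ITScale

/-! Theorem H for manifolds. -/

namespace Vale.Agent.P223.H391

open scoped ContDiff InnerProductSpace ENNReal
open MeasureTheory Vale.Agent.P223.H Vale.Agent.P223.X Vale.Agent.P223.H566
open Vale.Agent.P223.H66 (ScGe scGe_of HS hS_of)

section
variable {n : ℕ}

/-- the constant -/
def IsH (n : ℕ) (A : ℝ) : Prop := 0 < A ∧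
  ∀ (M X Γ I : Type) [TopologicalSpace M] [TopologicalSpace X]
  [Group Γ] [MulAction Γ X] [Fintype I] [T2Space X] [ConnectedSpace X] [T2Space M]
  [MeasurableSpace X] [BorelSpace X] [MeasurableSpace M] [BorelSpace M] (C : Cov n M X Γ I)
  (G : I → E n → Matrix (Fin n) (Fin n) ℝ)
  (_ : SpX C G (H441.Kex n)) (μ : Measure X) (ν : Measure M) (P : PUX C I)
  (χ : I → E n → ℝ) (ρ : M → ℝ) (F : (Fin (n + 1) → Γ) → ℝ),
  P.φ = (fun i => C.ex i (χ i)) →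
  (∀ i, C.Ck ∞ (P.φ i)) → VolX C G μ → VolM C G ν → Part C χ → ScGe G 1 → Continuous ρ →
  (∀ p, 0 ≤ ρ p) → H691.DoSX C G ν 1 n ρ → Coc F →
  |∑ᶠ l ∈ {l : Fin (n + 1) → Γ × I | (l 0).1 = 1}, P.wt χ l * F (fun k => (l k).1)| ≤
    A * ∫ m, ρ m ∂ν

theorem exists_H (hn : 3 ≤ n) : ∃ A, IsH n A := by
  obtain ⟨A, hA, h⟩ := specH H440.blk specEmb specOps (H691.specTrB specIntS) n
    (Module.finrank ℂ (H441.Sp n)) hn (Nat.pos_of_ne_zero H441.finrank_Sp)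
  exact ⟨A, hA, fun M X Γ I _ _ _ _ _ _ _ _ _ _ _ _ C G S μ ν P χ ρ F =>
    h M X Γ I (H441.Sp n) C G (H441.Kex n) S μ ν P χ ρ F rfl⟩

section man
variable {M : Type} [TopologicalSpace M] [CompactSpace M] [T2Space M] [ConnectedSpace M]
  [MeasurableSpace M] [BorelSpace M] {c : M → J.Ch n M}

theorem sv_H {A : ℝ} (hA : IsH n A) (hn : 3 ≤ n) (hc : J.Atl c)
    (hS : ∃ g₀, J.Met c g₀ ∧ J.CovSpin c g₀) (g : M → J.Mtx n) (ν : Measure M) (ρ : M → ℝ)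
    (hg : J.Met c g) (hν : J.Vol c g ν) (hs : ∀ p, -1 ≤ J.scal (g p) (c p p))
    (hρ : Continuous ρ) (hρ0 : ∀ p, 0 ≤ ρ p) (hd : J.DoS c g ν 1 n ρ) :
    J.sv c ≤ ENNReal.ofReal (A * ∫ p, ρ p ∂ν) := by
  have hu := Vale.Agent.P223.X.hu
  obtain ⟨d⟩ := FinalM.exists_data hu (by omega) c hc
  have hm := (hu.met n M d.X d.Γ d.I c d.B d.C hc d.hCB).1 g hg
  let _ : MeasurableSpace d.X := borel d.X
  have : BorelSpace d.X := ⟨rfl⟩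
  obtain ⟨-, ⟨μ, hμ⟩, -⟩ := Vale.Agent.P223.X.hb.vol n M d.X d.Γ d.I d.C (d.B.G g) hm
  obtain ⟨χ, hχ⟩ := Vale.Agent.P223.X.hb.part n M d.X d.Γ d.I d.C
  have hν' := hu.vol n M d.X d.Γ d.I c d.B d.C g ν hc d.hCB hg hν
  have h1 := hu.sv n M d.X d.Γ d.I c d.B d.C hc d.hCB
  obtain ⟨S⟩ := hS_of hc d hS _ hm
  obtain ⟨Q, hQ', hQ⟩ := H765.exists_pus d.C hχ
  have h0 : 0 ≤ A * ∫ p, ρ p ∂ν := mul_nonneg hA.1.le (integral_nonneg hρ0)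
  refine h1.trans ?_
  exact H66.specEndB n M d.X d.Γ d.I d.C χ (by omega) hχ d.inf d.I Q _ h0 fun F hF =>
    hA.2 M d.X d.Γ d.I d.C (d.B.G g) S μ ν Q χ ρ F hQ' hQ hμ hν' hχ
      (scGe_of hc d hg hs) hρ hρ0 (H691.doSX hc d.hCB hg hd) hF

end man

end

/-- THEOREM H -/
theorem finalH (n : ℕ) (hn : 3 ≤ n) : ∃ A : ℝ, 0 < A ∧
    ∀ (M : Type) [TopologicalSpace M] [CompactSpace M] [T2Space M] [ConnectedSpace M]
      [MeasurableSpace M] [BorelSpace M] (c : M → J.Ch n M), J.Atl c →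
      (∃ g₀, J.Met c g₀ ∧ J.CovSpin c g₀) →
      ∀ (g : M → J.Mtx n) (μ : Measure M) (κ : ℝ) (ρ : M → ℝ), J.Met c g → J.Vol c g μ →
      0 < κ → (∀ p, -κ ≤ J.scal (g p) (c p p)) → Continuous ρ → (∀ p, 0 ≤ ρ p) →
      J.DoS c g μ κ n ρ →
      J.sv c ≤ ENNReal.ofReal (A * (κ ^ (2 * n) * ∫ p, ρ p ∂μ)) := by
  obtain ⟨A, hA⟩ := exists_H hn
  refine ⟨A, hA.1, ?_⟩
  intro M _ _ _ _ _ _ c hc hS g μ κ ρ hg hμ hκ hs hρ hρ0 hd
  exact H691.scale_H (sv_H hA hn hc hS) hκ hg hμ hs hρ hρ0 hd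

end Vale.Agent.P223.H391
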