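import Vale.Agent.P223.H391.Wh
import Vale.Agent.P223.H566.AllV

/-! The final theorem: Sobolev inequalities in balls of the universal covering, injectivity radius,
conjugate points. -/

namespace Vale.Agent.P223.H391

open MeasureTheory

section
variable {n : ℕ} {M : Type} [TopologicalSpace M] [CompactSpace M] [T2Space M] [ConnectedSpace M]
  [MeasurableSpace M] [BorelSpace M] {c : M → J.Ch n M} {g : M → J.Mtx n}

/-- the second part of `J.Ineq` follows from the first one -/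
theorem ineq_of (hn : 3 ≤ n) (hc : J.Atl c) (hg : J.Met c g) {μ : Measure M}
    (hμ : J.Vol c g μ) {a : ℝ} {h : M → ℝ} (ha : 0 ≤ a) (hh : ∀ p, 0 ≤ h p)
    (h1 : J.sv c ≤ ENNReal.ofReal a * J.L n μ (fun p => max 0 (h p - J.scal (g p) (c p p)))) :
    J.Ineq c g μ a h := by
  refine ⟨h1, fun s κ f μ' hs hsκ hf hμ' => ?_⟩
  have h2 : ∀ p, J.sn c g p + h p = max 0 (h p - J.scal (g p) (c p p)) := fun p => by
    have h3 := (hsκ p).1
    have h4 := hh p
    unfold J.sn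
    rw [max_eq_right (by linarith), max_eq_right (by linarith)]
    ring
  have h5 := H440.L_conf hn hc hg hμ hs (fun p => (hsκ p).1) hh (κ := κ) (fun p => by
    have h3 := (hsκ p).1
    have h4 := hh p
    rw [h2]
    exact max_le (by linarith [(hsκ p).2]) (hsκ p).2) hf hμ'
  simp only [h2] at h5
  have hκ : 0 ≤ κ / s := by
    obtain ⟨p⟩ : Nonempty M := inferInstance
    have h3 := (hsκ p).1
    have h4 := hh p
    exact div_nonneg (by linarith [(hsκ p).2]) hs.le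
  refine h1.trans ?_
  rw [ENNReal.ofReal_mul ha, mul_assoc]
  exact mul_le_mul_right h5 _

end

/-- The final theorem. -/
theorem finalW (n : ℕ) (hn : 3 ≤ n) : ∃ A : ℝ, 0 < A ∧
    ∀ (M : Type) [TopologicalSpace M] [CompactSpace M] [T2Space M] [ConnectedSpace M]
      [MeasurableSpace M] [BorelSpace M] (c : M → J.Ch n M), J.Atl c →
      ∀ (g : M → J.Mtx n) (μ : Measure M), J.Met c g → J.Vol c g μ →
      ∀ (g₁ : M → J.Mtx n) (K : ℝ), J.Met c g₁ → 1 ≤ K → J.Bil c g₁ g K →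
      ((∃ g₀, J.Met c g₀ ∧ J.CovSpin c g₀) → ∀ (r : M → ℝ) (ε : ℝ), (∀ p, 0 < r p) → 0 < ε →
        ε ≤ 1 →
        (∀ (β : M → ℝ) (T y : ℝ), Continuous r → Continuous β → (∀ p, 0 ≤ β p) → 1 ≤ T →
          0 < y → y ≤ 1 →
          J.UCSobAt c g₁ (fun p => T * max 0 (J.scal (g p) (c p p)) + β p) y r →
          J.Ineq c g μ (A * K ^ ((n : ℝ) ^ 2 / 2) * (T / (y * ε)) ^ ((n : ℝ) / 2))
            fun p => ε * (β p + 1 / r p ^ 2)) ∧
        (J.Lip1 c g₁ r → J.InjGe c g₁ r →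
          J.Ineq c g μ (A * K ^ ((n : ℝ) ^ 2 / 2) * ε ^ (-(n : ℝ) / 2))
            fun p => ε / r p ^ 2)) ∧
      (J.NoConj c g₁ → J.Ineq c g μ (A * K ^ ((n : ℝ) ^ 2 / 2)) fun _ => 0) := by
  obtain ⟨A₁, hA₁, h1⟩ := specW n hn
  obtain ⟨A₂, hA₂, h2⟩ := H566.final n hn
  refine ⟨max A₁ A₂, lt_max_of_lt_left hA₁, ?_⟩
  intro M _ _ _ _ _ _ c hc g μ hg hμ g₁ K hg₁ hK hb
  have hK0 : 0 < K := by linarith
  have hKp : 0 < K ^ ((n : ℝ) ^ 2 / 2) := Real.rpow_pos_of_pos hK0 _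
  have hA0 : 0 < max A₁ A₂ := lt_max_of_lt_left hA₁
  obtain ⟨h3, h4⟩ := h2 M c hc g μ hg hμ g₁ K hg₁ hK hb
  refine ⟨fun hS r ε hr0 hε hε1 => ⟨fun β T y hr hβ hβ0 hT hy hy1 hU => ?_, fun hr hinj => ?_⟩,
    fun hNC => ?_⟩
  · have hT0 : 0 ≤ (T / (y * ε)) ^ ((n : ℝ) / 2) := Real.rpow_nonneg (by positivity) _
    refine ineq_of hn hc hg hμ (by positivity) (fun p => ?_) ?_
    · have := hr0 p
      have := hβ0 p
      positivity
    · refine (h1 M c hc hS g g₁ μ r β K T y ε hg hμ hg₁ hK hb hr hr0 hβ hβ0 hT hy hy1 hU hε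
        hε1).trans ?_
      gcongr
      exact le_max_left _ _
  · have hε0 : 0 ≤ ε ^ (-(n : ℝ) / 2) := Real.rpow_nonneg hε.le _
    refine ineq_of hn hc hg hμ (by positivity) (fun p => ?_) ?_
    · have := hr0 p
      positivity
    · refine ((h3 hS r hr hr0 hinj).1 ε hε hε1).trans ?_
      gcongr
      exact le_max_right _ _
  · refine ineq_of hn hc hg hμ (by positivity) (fun p => le_rfl) ?_
    have h5 := (h4 hNC).1
    simp only [zero_sub]
    refine h5.trans ?_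
    unfold J.sn
    gcongr
    exact le_max_right _ _

end Vale.Agent.P223.H391
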