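import Vale.Agent.P223.H391.Cmp2
import Vale.Agent.P223.H391.Unf
import Vale.Agent.P223.H850.SmoothX
import Vale.Agent.P223.H850.LinB
import Vale.Agent.P223.H191.Iter2

/-! Comparison with the solution of a linear equation of class `C²`. -/

namespace Vale.Agent.P223.H391

open scoped ContDiff InnerProductSpace Topology
open MeasureTheory Vale.Agent.P223.H Vale.Agent.P223.X Vale.Agent.P223.H566
open Vale.Agent.P223.H850 (Ck_of_le lapX_add lapX_const lapX_mul)

section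
variable {n : ℕ} {M X Γ I : Type} [TopologicalSpace M] [TopologicalSpace X] [Group Γ]
    [MulAction Γ X] {C : Cov n M X Γ I} {G : I → E n → Matrix (Fin n) (Fin n) ℝ}

/-- smooth positive invariant functions have a bounded logarithmic gradient -/
theorem Sm_grad [Finite I] (hG : MetX C G) {w : X → ℝ} (hw : H850.Sm C w) (hp : ∀ x, 0 < w x) :
    ∃ c : ℝ, ∀ x, gsX C G w x ≤ (c * w x) ^ 2 := by
  obtain ⟨B, hB0, hB⟩ := H191.exists_bd (u := fun x => gsX C G w x / w x ^ 2)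
    ((hw.gs_cont hG).div (hw.cont.pow 2) fun x => (pow_pos (hp x) 2).ne')
    (fun γ x => by simp only [hw.gs_inv hG, hw.inv]) C
  refine ⟨√B, fun x => ?_⟩
  rw [mul_pow, Real.sq_sqrt hB0]
  have := (abs_le.1 (hB x)).2
  rwa [div_le_iff₀ (pow_pos (hp x) 2)] at this

theorem exists_lb [Finite I] {f : X → ℝ} (hc : Continuous f) (hi : ∀ (γ : Γ) x, f (γ • x) = f x)
    (hp : ∀ x, 0 < f x) (C : Cov n M X Γ I) : ∃ ε : ℝ, 0 < ε ∧ ∀ x, ε ≤ f x := by
  rcases isEmpty_or_nonempty X with hX | hX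
  · exact ⟨1, one_pos, fun x => (hX.false x).elim⟩
  · obtain ⟨x₀, h0⟩ := H191.exists_min hc hi C
    exact ⟨f x₀, hp x₀, h0⟩

end

section
variable {n : ℕ} {M X Γ I V H : Type} [TopologicalSpace M] [TopologicalSpace X]
  [Group Γ] [MulAction Γ X] [Fintype I] [T2Space X] [ConnectedSpace X] [T2Space M]
  [MeasurableSpace X] [BorelSpace X] [NormedAddCommGroup V] [InnerProductSpace ℂ V]
  [FiniteDimensional ℂ V] [NormedAddCommGroup H] [InnerProductSpace ℂ H] [CompleteSpace H]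
  {c : Ctx n M X Γ I V H}

theorem wb_mono {w w' : X → ℝ} (hw : Continuous w) (hw' : Continuous w') (h : ∀ x, w x ≤ w' x)
    {b : ℝ} (hb : 0 ≤ b) {u : H} (hu : WB c.E w b u) : WB c.E w' b u := fun φ =>
  (hu φ).trans (mul_le_mul_of_nonneg_left (integral_mono (integrable_f φ hw) (integrable_f φ hw')
    fun x => mul_le_mul_of_nonneg_right (h x) (nm_nonneg _ _)) hb)

theorem wb_lim {w : X → ℝ} (hw : Continuous w) {b : ℝ} {u : H}
    (h : ∀ δ : ℝ, 0 < δ → WB c.E (fun x => w x + δ) b u) : WB c.E w b u := by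
  intro φ
  have h1 : ∀ δ : ℝ, ∫ x, (w x + δ) * nm c.C (φ : Raw Γ I n V) x ∂c.μ =
      (∫ x, w x * nm c.C (φ : Raw Γ I n V) x ∂c.μ) + δ * ∫ x, nm c.C (φ : Raw Γ I n V) x ∂c.μ := by
    intro δ
    have i1 : Integrable (fun x => nm c.C (φ : Raw Γ I n V) x) c.μ := by
      simpa using integrable_f φ (continuous_const (y := (1 : ℝ)))
    rw [← integral_const_mul, ← integral_add (integrable_f φ hw) (i1.const_mul δ)]
    refine integral_congr_ae (Filter.Eventually.of_forall fun x => ?_)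
    simp only
    ring
  have hlim : Filter.Tendsto (fun δ : ℝ => b * ((∫ x, w x * nm c.C (φ : Raw Γ I n V) x ∂c.μ) +
      δ * ∫ x, nm c.C (φ : Raw Γ I n V) x ∂c.μ)) (𝓝[>] 0)
      (𝓝 (b * ((∫ x, w x * nm c.C (φ : Raw Γ I n V) x ∂c.μ) +
        0 * ∫ x, nm c.C (φ : Raw Γ I n V) x ∂c.μ))) :=
    (Continuous.tendsto (by fun_prop) 0).mono_left nhdsWithin_le_nhds
  rw [zero_mul, add_zero] at hlim
  refine ge_of_tendsto hlim ?_
  filter_upwards [self_mem_nhdsWithin] with δ hδ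
  rw [← h1 δ]
  exact h δ hδ φ

/-- Comparison for solutions of class `C²`. -/
theorem cmpC2 (hL : SpecLocal) (hD : SpecDense) (hn : 1 ≤ n) {m K : ℝ} (hm : 0 < m) (hK : 0 < K)
    {g p : H →L[ℂ] H} (hR : Rsv c.E m g p) {χ : I → E n → ℝ} (hχ : Part c.C χ)
    (hs : ∀ i y, K ≤ m ^ 2 + Vale.Agent.P223.H.scal (c.G i) y / 4) {w f : X → ℝ}
    (hw : c.C.Ck 2 w) (hwi : ∀ (γ : Γ) x, w (γ • x) = w x) (hf : Continuous f)
    (hfi : ∀ (γ : Γ) x, f (γ • x) = f x) (hf0 : ∀ x, 0 < f x)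
    (heq : ∀ x, K * w x - lapX c.C c.G w x = f x) {u : H} (hu : WB c.E f 1 u) :
    WB c.E w 1 (g u) := by
  have hG := c.S.met
  have hcw : Continuous w := Ck_continuous c.C fun γ i => (hw γ i).of_le (by simp)
  obtain ⟨f₀, hf₀, hfl⟩ := exists_lb hf hfi hf0 c.C
  have hwl : ∀ x, f₀ / K ≤ w x := H191.max_principle hG hw hwi hK fun x => by
    rw [heq]; exact hfl x
  have hw0 : ∀ x, 0 < w x := fun x => (div_pos hf₀ hK).trans_le (hwl x)
  refine wb_lim hcw fun δ hδ => ?_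
  have hK2 : 0 < 2 + 1 / K := by positivity
  set δ' : ℝ := δ / (2 + 1 / K) with hδ'
  have hδ'0 : 0 < δ' := div_pos hδ hK2
  have hδ'e : δ' * (2 + 1 / K) = δ := div_mul_cancel₀ _ hK2.ne'
  obtain ⟨v, hv, hv1, hv2⟩ := H850.exists_smooth hG hχ hw hwi hδ'0
  set w' : X → ℝ := fun x => v x + (1 + 1 / K) * δ' with hw'
  have hw's : H850.Sm c.C w' := hv.add (H850.Sm.const _)
  have hlap : ∀ x, lapX c.C c.G w' x = lapX c.C c.G v x := fun x => by
    rw [hw', lapX_add hG hv.c2 (fun γ i => contDiff_const), lapX_const hG, add_zero]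
  have hKi : K * (1 / K) = 1 := by field_simp
  have h1 : ∀ x, w x < w' x := fun x => by
    have := (abs_le.1 (hv1 x)).1
    have h2 : 0 < 1 / K * δ' := by positivity
    rw [hw']
    simp only
    nlinarith
  have h2 : ∀ x, w' x ≤ w x + δ := fun x => by
    have := (abs_le.1 (hv1 x)).2
    rw [hw']
    simp only
    nlinarith
  have h3 : ∀ x, f x ≤ K * w' x - lapX c.C c.G w' x := fun x => by
    have a1 := (abs_le.1 (hv1 x)).1
    have a2 := (abs_le.1 (hv2 x)).2
    have a3 : K * (-δ') ≤ K * (v x - w x) := mul_le_mul_of_nonneg_left a1 hK.le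
    have a4 : K * ((1 + 1 / K) * δ') = K * δ' + δ' := by
      rw [add_mul, one_mul, mul_add, ← mul_assoc, hKi, one_mul]
    rw [hlap, ← heq, hw']
    simp only
    rw [mul_add, a4]
    linarith
  have hw'0 : ∀ x, 0 < w' x := fun x => (hw0 x).trans (h1 x)
  obtain ⟨B, hB0, hB⟩ := H191.exists_bd hw's.cont hw's.inv c.C
  have hB1 : 0 < B + 1 := by linarith
  have h4 : WB c.E w' 1 (g u) := by
    refine cmp hL hD hn hm hR hw's.ck hw'0 (Sm_grad hG hw's hw'0) hf
      (ε := f₀ / (B + 1)) (div_pos hf₀ hB1) (fun x => ?_) (fun γ i y => ?_) hu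
    · refine le_trans ?_ (hfl x)
      rw [div_mul_eq_mul_div, div_le_iff₀ hB1]
      refine mul_le_mul_of_nonneg_left ?_ hf₀.le
      have := (abs_le.1 (hB x)).2
      linarith
    · have a1 := h3 (γ • c.C.ψ i y)
      rw [Vale.Agent.P223.X.lapX_eq hG hw's.c2] at a1
      have a2 := mul_le_mul_of_nonneg_right (hs i y) (hw'0 (γ • c.C.ψ i y)).le
      rw [add_mul] at a2
      linarith
  exact wb_mono hw's.cont (hcw.add continuous_const) h2 zero_le_one h4

end

end Vale.Agent.P223.H391
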