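import Vale.Agent.P223.H391.HX1
import Vale.Agent.P223.H440.Sm0
import Vale.Agent.P223.H440.Ker
import Vale.Agent.P223.H691.IT
import Vale.Agent.P223.X.LapX
import Vale.Agent.P223.X.PartX

/-! The weight, and the bound of the powers of the resolvent. -/

namespace Vale.Agent.P223.H391

open scoped ContDiff InnerProductSpace Topology
open MeasureTheory Vale.Agent.P223.H Vale.Agent.P223.X Vale.Agent.P223.H566
  Vale.Agent.P223.X.Avg
open Vale.Agent.P223.H850 (Ck_of_le lapX_add lapX_const lapX_mul)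
open Vale.Agent.P223.H66 (ScGe)

section
variable {n : ℕ} {M X Γ I : Type} [TopologicalSpace M] [TopologicalSpace X] [Group Γ]
    [MulAction Γ X] [Fintype I] [T2Space X] [ConnectedSpace X] [T2Space M]
    {C : Cov n M X Γ I} {G : I → E n → Matrix (Fin n) (Fin n) ℝ}

omit [T2Space X] [ConnectedSpace X] in
/-- iterated solutions -/
theorem exists_chain (hG : MetX C G) {K : ℝ} (hK : 0 < K) {f : X → ℝ} (hf : C.Ck 2 f)
    (hfi : ∀ (γ : Γ) x, f (γ • x) = f x) :
    ∃ u : ℕ → X → ℝ, u 0 = f ∧ (∀ j, C.Ck 2 (u j)) ∧ (∀ j (γ : Γ) x, u j (γ • x) = u j x) ∧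
      ∀ j x, K * u (j + 1) x - lapX C G (u (j + 1)) x = u j x := by
  classical
  have hstep : ∀ v : {v : X → ℝ // C.Ck 2 v ∧ ∀ (γ : Γ) x, v (γ • x) = v x},
      ∃ w : {v : X → ℝ // C.Ck 2 v ∧ ∀ (γ : Γ) x, v (γ • x) = v x},
      ∀ x, K * w.1 x - lapX C G w.1 x = v.1 x := fun v => by
    obtain ⟨w, h1, h2, h3⟩ := H850.LinB.specLin C hG hK
      (fun γ i => (v.2.1 γ i).of_le (by norm_num)) v.2.2
    exact ⟨⟨w, h1, h2⟩, h3⟩
  choose s hs using hstep
  let u : ℕ → {v : X → ℝ // C.Ck 2 v ∧ ∀ (γ : Γ) x, v (γ • x) = v x} :=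
    fun j => Nat.rec ⟨f, hf, hfi⟩ (fun _ v => s v) j
  exact ⟨fun j => (u j).1, rfl, fun j => (u j).2.1, fun j => (u j).2.2, fun j => hs (u j)⟩

/-- the weight -/
theorem exists_W [MeasurableSpace M] [BorelSpace M] {ν : Measure M} {χ : I → E n → ℝ}
    (hG : MetX C G) (hM : VolM C G ν) (hχ : Part C χ) {ρ : M → ℝ} (hρ : Continuous ρ)
    (hρ0 : ∀ p, 0 ≤ ρ p) {ε : ℝ} (hε : 0 < ε) :
    ∃ W : X → ℝ, H850.Sm C W ∧ (∀ x, 0 < W x) ∧
      (∀ x, ρ (C.π x) ≤ 1 / 2 * W x - lapX C G W x) ∧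
      ∫ m, C.dn W m ∂ν ≤ 2 * (∫ m, ρ m ∂ν) + ε := by
  have hfin : IsFiniteMeasure ν := IntM.isFiniteMeasure hG hM
  have hcomp : CompactSpace M := IntM.compactSpace C
  set Vv : ℝ := ν.real Set.univ with hVv
  have hVv0 : 0 ≤ Vv := measureReal_nonneg
  set δ : ℝ := ε / (14 * (Vv + 1)) with hδ
  have hδ0 : 0 < δ := by positivity
  have hδe : 14 * δ * Vv ≤ ε := by
    have : δ * (14 * (Vv + 1)) = ε := div_mul_cancel₀ _ (by positivity)
    nlinarith
  have hρX : Continuous (fun x => ρ (C.π x)) := hρ.comp (IntM.isQuotientMap_π C).continuous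
  have hρi : ∀ (γ : Γ) x, (fun x => ρ (C.π x)) (γ • x) = (fun x => ρ (C.π x)) x := fun γ x => by
    simp only [Vol.π_smul]
  obtain ⟨v, hv, hv1⟩ := H440.exists_smooth0 hχ hρX hρi hδ0
  set f : X → ℝ := fun x => v x + 2 * δ with hf
  have hfs : H850.Sm C f := hv.add (H850.Sm.const _)
  obtain ⟨W₀, h0, h0i, h0e⟩ := H850.LinB.specLin C hG (K := 1 / 2) (by norm_num)
    (fun γ i => contDiff_infty.1 (hfs.ck γ i) 1) hfs.inv
  obtain ⟨W₁, h1, h1a, h1b⟩ := H850.exists_smooth hG hχ h0 h0i hδ0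
  set W : X → ℝ := fun x => W₁ x + 3 * δ with hW
  have hWs : H850.Sm C W := h1.add (H850.Sm.const _)
  have hlap : ∀ x, lapX C G W x = lapX C G W₁ x := fun x => by
    rw [hW, lapX_add hG h1.c2 (fun γ i => contDiff_const), lapX_const hG, add_zero]
  have hge : ∀ x, f x ≤ 1 / 2 * W x - lapX C G W x := fun x => by
    have a1 := (abs_le.1 (h1a x)).1
    have a2 := (abs_le.1 (h1b x)).2
    rw [hlap, ← h0e, hW]
    simp only
    linarith
  have hle : ∀ x, 1 / 2 * W x - lapX C G W x ≤ f x + 4 * δ := fun x => by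
    have a1 := (abs_le.1 (h1a x)).2
    have a2 := (abs_le.1 (h1b x)).1
    rw [hlap, ← h0e, hW]
    simp only
    linarith
  have hfρ : ∀ x, ρ (C.π x) + δ ≤ f x := fun x => by
    have := (abs_le.1 (hv1 x)).1
    rw [hf]
    simp only
    linarith
  have hfρ' : ∀ x, f x ≤ ρ (C.π x) + 3 * δ := fun x => by
    have := (abs_le.1 (hv1 x)).2
    rw [hf]
    simp only
    linarith
  have hWp : ∀ x, δ / (1 / 2) ≤ W x := H191.max_principle hG hWs.c2 hWs.inv (by norm_num)
    fun x => by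
      have a1 := hge x
      have a2 := hfρ x
      have a3 := hρ0 (C.π x)
      linarith
  refine ⟨W, hWs, fun x => (by positivity : 0 < δ / (1 / 2)).trans_le (hWp x), fun x => ?_, ?_⟩
  · have a1 := hge x
    have a2 := hfρ x
    linarith
  · have i1 : Integrable (C.dn W) ν := H191.int_dn hG hM hWs.cont hWs.inv
    have i2 : Integrable (C.dn (lapX C G W)) ν :=
      H191.int_dn hG hM (hWs.lap_cont hG) (hWs.lap_inv hG)
    have i3 : Integrable ρ ν :=
      hρ.integrable_of_hasCompactSupport (HasCompactSupport.of_compactSpace _)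
    have e1 := LapX.main PartX.main n M X Γ I C G ν hG hM W hWs.c2 hWs.inv
    have e2 : ∫ m, (1 / 2 * C.dn W m - C.dn (lapX C G W) m) ∂ν ≤ ∫ m, (ρ m + 7 * δ) ∂ν := by
      refine integral_mono ((i1.const_mul _).sub i2) (i3.add (integrable_const _)) fun m => ?_
      obtain ⟨x, rfl⟩ := C.surj m
      have a1 := hle x
      have a2 := hfρ' x
      simp only [IntM.dn_eq C hWs.inv, IntM.dn_eq C (hWs.lap_inv hG)]
      linarith
    rw [integral_sub (i1.const_mul _) i2, integral_const_mul, e1, sub_zero,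
      integral_add i3 (integrable_const _), integral_const, smul_eq_mul, ← hVv] at e2
    nlinarith

end

end Vale.Agent.P223.H391
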