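import Vale.Agent.P223.H391.HX2

/-! The bound of the powers of the resolvent. -/

namespace Vale.Agent.P223.H391

open scoped ContDiff InnerProductSpace Topology
open MeasureTheory Vale.Agent.P223.H Vale.Agent.P223.X Vale.Agent.P223.H566
  Vale.Agent.P223.X.Avg
open Vale.Agent.P223.H850 (lapX_add lapX_const lapX_mul)
open Vale.Agent.P223.H66 (ScGe)

theorem gav_ge {n : ℕ} {M X Γ I : Type} [TopologicalSpace M] [TopologicalSpace X] [Group Γ]
    [MulAction Γ X] [Finite I] [T2Space X] (C : Cov n M X Γ I) {φ : X → ℝ}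
    (hs : HasCompactSupport φ) (h0 : ∀ x, 0 ≤ φ x) (x : X) :
    φ x ≤ gav (fun _ : Γ => (1 : ℝ)) φ x := by
  have hfin : {γ : Γ | ∃ z ∈ tsupport φ, γ • z ∈ ({x} : Set X)}.Finite :=
    properX' C hs isCompact_singleton
  have h1 := single_le_finsum (1 : Γ) (f := fun g : Γ => (1 : ℝ) • φ (g⁻¹ • x))
    (hfin.subset fun g hg => ⟨g⁻¹ • x, subset_tsupport _ fun h => hg (by simp [h]),
      by rw [smul_inv_smul]; rfl⟩) (fun g => by rw [one_smul]; exact h0 _)
  simpa [gav] using h1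

section
variable {n : ℕ} {M X Γ I V H : Type} [TopologicalSpace M] [TopologicalSpace X]
  [Group Γ] [MulAction Γ X] [Fintype I] [T2Space X] [ConnectedSpace X] [T2Space M]
  [MeasurableSpace X] [BorelSpace X] [NormedAddCommGroup V] [InnerProductSpace ℂ V]
  [FiniteDimensional ℂ V] [NormedAddCommGroup H] [InnerProductSpace ℂ H] [CompleteSpace H]
  {c : Ctx n M X Γ I V H}

omit [Fintype I] [T2Space X] [ConnectedSpace X] [T2Space M] [BorelSpace X]
  [FiniteDimensional ℂ V] [CompleteSpace H] in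
theorem norm_le_core {x : H} {B : ℝ} (hB : 0 ≤ B)
    (h : ∀ φ : Core c.S, ‖⟪x, c.E.e φ⟫_ℂ‖ ≤ B * ‖c.E.e φ‖) : ‖x‖ ≤ B := by
  have h1 : ∀ y : H, ‖⟪x, y⟫_ℂ‖ ≤ B * ‖y‖ := fun y =>
    c.E.dense.induction_on (p := fun y => ‖⟪x, y⟫_ℂ‖ ≤ B * ‖y‖) y
      (isClosed_le (by fun_prop) (by fun_prop)) h
  have h2 := h1 x
  rw [inner_self_eq_norm_sq_to_K] at h2
  rcases (norm_nonneg x).eq_or_lt with h3 | h3
  · rw [← h3]; exact hB
  · have h4 : ‖((‖x‖ : ℂ)) ^ 2‖ = ‖x‖ * ‖x‖ := by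
      rw [norm_pow, Complex.norm_real, norm_norm, sq]
    have h5 : ‖x‖ * ‖x‖ ≤ B * ‖x‖ := by
      rw [← h4]; exact h2
    exact le_of_mul_le_mul_right h5 h3

theorem wb_nm (ψ : Core c.S) {f : X → ℝ} (hf : Continuous f)
    (h : ∀ x, nm c.C (ψ : Raw Γ I n V) x ≤ f x) : WB c.E f 1 (c.E.e ψ) := by
  intro φ
  rw [c.E.ip, one_mul]
  unfold ipr
  refine (norm_integral_le_integral_norm _).trans ?_
  refine integral_mono (IsCore.integrable_hp ψ.2 φ.2 c.vol).norm (integrable_f φ hf) fun x => ?_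
  refine (norm_inner_le_norm _ _).trans ?_
  exact mul_le_mul_of_nonneg_right (h x) (norm_nonneg _)

variable [MeasurableSpace M] [BorelSpace M]

/-- The bound of `g ^ (N + 1)`. -/
theorem wb_sqrt (hL : SpecLocal) (hD : SpecDense) (hn : 1 ≤ n) {N : ℕ} {m : ℝ} (hm : 0 < m)
    (hm2 : 5 / 4 ≤ m ^ 2) {g p : H →L[ℂ] H} (hR : Rsv c.E m g p) {χ : I → E n → ℝ}
    (hχ : Part c.C χ) {ν : Measure M} (hM : VolM c.C c.G ν) (hs : ScGe c.G 1) {ρ : M → ℝ}
    (hdos : H691.DoSX c.C c.G ν 1 N ρ) {W : X → ℝ} (hW : H850.Sm c.C W)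
    (hWρ : ∀ x, ρ (c.C.π x) ≤ 1 / 2 * W x - lapX c.C c.G W x) (ψ : Core c.S) :
    WB c.E (fun x => √(W x)) ‖c.E.e ψ‖ ((g ^ (N + 1)) (c.E.e ψ)) := by
  have hG := c.S.met
  have hfinM : IsFiniteMeasure ν := IntM.isFiniteMeasure hG hM
  have hfin := finComp c.S.met c.vol
  set Q : ℝ := ‖c.E.e ψ‖ ^ 2 with hQ
  set Vv : ℝ := ν.real Set.univ with hVv
  have hVv0 : 0 ≤ Vv := measureReal_nonneg
  have hQ0 : 0 ≤ Q := sq_nonneg _
  set q : X → ℝ := fun x => nm c.C (ψ : Raw Γ I n V) x ^ 2 with hq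
  have hqs : c.C.Ck ∞ q := H620.Ck_nmsq ψ
  have hqc : Continuous q := Ck_continuous c.C fun γ i => contDiff_infty.1 (hqs γ i) 0
  have hcs : HasCompactSupport q :=
    ψ.2.nm_supp.comp_left (g := fun t : ℝ => t ^ 2) (by norm_num)
  have hqi : ∫ x, q x ∂c.μ = Q := (H620.norm_sq_e c.E c.vol ψ).2.symm
  set F : X → ℝ := gav (fun _ : Γ => (1 : ℝ)) q with hF
  have hcF : H850.Sm c.C F := ⟨Ck_gav c.C _ _ hcs hqs, fun γ x => gav_one_inv _ γ x⟩
  have hF1 : ∀ x, q x ≤ F x := fun x => gav_ge c.C hcs (fun x => sq_nonneg _) x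
  have hF0 : ∀ x, 0 ≤ F x := fun x => (sq_nonneg _).trans (hF1 x)
  have hFi : ∫ m, c.C.dn F m ∂ν = Q := by
    rw [← hqi]
    exact unfold_M hG c.vol hM hχ hqc hcs
  have hcW : Continuous (fun x => √(W x)) := hW.cont.sqrt
  -- the bound for each `δ`
  have key : ∀ δ : ℝ, 0 < δ → WB c.E (fun x => √(W x)) (√(Q + δ * Vv))
      ((g ^ (N + 1)) (c.E.e ψ)) := by
    intro δ hδ
    set R : ℝ := Q + δ * Vv with hRd
    have hR0 : 0 ≤ R := by positivity
    set f : X → ℝ := fun x => √(F x + δ) with hf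
    have hfp : ∀ x, 0 < F x + δ := fun x => by have := hF0 x; linarith
    have hfs : H850.Sm c.C f := ⟨fun γ i => ((hcF.ck γ i).add contDiff_const).sqrt fun y =>
      (hfp _).ne', fun γ x => by simp only [hf, hcF.inv]⟩
    have hf2 : ∀ m, c.C.dn f m ^ 2 = c.C.dn F m + δ := fun m => by
      obtain ⟨x, rfl⟩ := c.C.surj m
      rw [IntM.dn_eq c.C hfs.inv, IntM.dn_eq c.C hcF.inv]
      exact Real.sq_sqrt (hfp x).le
    have hfi : ∫ m, c.C.dn f m ^ 2 ∂ν = R := by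
      simp only [hf2]
      rw [integral_add (H191.int_dn hG hM hcF.cont hcF.inv) (integrable_const _), hFi,
        integral_const, smul_eq_mul, hRd, mul_comm]
    have hnf : ∀ x, nm c.C (ψ : Raw Γ I n V) x ≤ f x := fun x =>
      Real.le_sqrt_of_sq_le ((hF1 x).trans (by linarith))
    obtain ⟨u, hu0, hu2, hui, hue⟩ := exists_chain hG one_pos hfs.c2 hfs.inv
    have huc : ∀ j, Continuous (u j) := fun j =>
      Ck_continuous c.C fun γ i => (hu2 j γ i).of_le (by simp)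
    have hup : ∀ j x, 0 < u j x := by
      intro j
      induction j with
      | zero => intro x; rw [hu0]; exact Real.sqrt_pos.2 (hfp x)
      | succ j ih =>
        obtain ⟨ε, hε, hεu⟩ := exists_lb (huc j) (hui j) ih c.C
        intro x
        refine (div_pos hε one_pos).trans_le
          (H191.max_principle hG (hu2 (j + 1)) (hui (j + 1)) one_pos (fun x => ?_) x)
        rw [hue]
        exact hεu x
    have hwb : ∀ j, WB c.E (u j) 1 ((g ^ j) (c.E.e ψ)) := by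
      intro j
      induction j with
      | zero =>
        rw [hu0, pow_zero]
        exact wb_nm ψ hfs.cont hnf
      | succ j ih =>
        have e1 : (g ^ (j + 1)) (c.E.e ψ) = g ((g ^ j) (c.E.e ψ)) := by
          rw [pow_succ']; rfl
        rw [e1]
        refine cmpC2 hL hD hn hm one_pos hR hχ (fun i y => ?_) (hu2 (j + 1)) (hui (j + 1)) (huc j)
          (hui j) (hup j) (hue j) ih
        have := hs i y
        linarith
    -- the bound of `u N`
    have hN : ∀ x, u N x ^ 2 ≤ ρ (c.C.π x) * R := fun x => by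
      have := hdos u (fun j _ => hu2 j) (fun j _ => hui j) (fun j _ => hue j) x
      rw [hu0, hfi] at this
      exact this
    -- the bound of `u (N + 1)`
    set v : X → ℝ := u (N + 1) with hv
    have hv2 : c.C.Ck 2 fun x => v x ^ 2 := fun γ i => (hu2 (N + 1) γ i).pow 2
    have hWR : c.C.Ck 2 fun x => R * W x := (hW.smul R).c2
    have hvm : c.C.Ck 2 fun x => (-1) * v x ^ 2 := fun γ i => contDiff_const.mul (hv2 γ i)
    have hz : ∀ x, 0 / (1 / 2 : ℝ) ≤ R * W x + (-1) * v x ^ 2 := by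
      refine H191.max_principle (u := fun x => R * W x + (-1) * v x ^ 2) hG
        (fun γ i => (hWR γ i).add (hvm γ i)) (fun γ x => ?_) (K := 1 / 2) (δ := 0)
        (by norm_num) fun x => ?_
      · simp only [hW.inv, hv, hui (N + 1)]
      · rw [lapX_add hG hWR hvm, lapX_mul hG R hW.c2, lapX_mul hG (-1) hv2]
        have a1 := mul_le_mul_of_nonneg_left (hWρ x) hR0
        have a2 := H191.u_lap_le hG (hu2 (N + 1)) x
        have a3 := hue N x
        have a4 := hN x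
        rw [← hv] at a2 a3
        have a5 : lapX c.C c.G v x = v x - u N x := by linarith
        rw [a5] at a2
        nlinarith [sq_nonneg (v x - u N x), sq_nonneg (v x)]
    have hvW : ∀ x, v x ≤ √R * √(W x) := fun x => by
      rw [← Real.sqrt_mul hR0]
      refine Real.le_sqrt_of_sq_le ?_
      have := hz x
      rw [zero_div] at this
      linarith
    intro φ
    have h1 := wb_mono (huc (N + 1)) (continuous_const.mul hcW) hvW zero_le_one (hwb (N + 1)) φ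
    rw [one_mul] at h1
    refine h1.trans (le_of_eq ?_)
    rw [← integral_const_mul]
    refine integral_congr_ae (Filter.Eventually.of_forall fun x => ?_)
    simp only [Pi.mul_apply]
    ring
  intro φ
  have hlim : Filter.Tendsto (fun δ : ℝ => √(Q + δ * Vv) *
      ∫ x, √(W x) * nm c.C (φ : Raw Γ I n V) x ∂c.μ) (𝓝[>] 0)
      (𝓝 (√(Q + 0 * Vv) * ∫ x, √(W x) * nm c.C (φ : Raw Γ I n V) x ∂c.μ)) :=
    (Continuous.tendsto (by fun_prop) 0).mono_left nhdsWithin_le_nhds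
  rw [zero_mul, add_zero, hQ, Real.sqrt_sq (norm_nonneg _)] at hlim
  refine ge_of_tendsto hlim ?_
  filter_upwards [self_mem_nhdsWithin] with δ hδ
  exact key δ hδ φ

/-- The kernel bound. -/
theorem kerW (hL : SpecLocal) (hD : SpecDense) (hn : 1 ≤ n) {N : ℕ} {m : ℝ} (hm : 0 < m)
    (hm2 : 5 / 4 ≤ m ^ 2) {g p : H →L[ℂ] H} (hR : Rsv c.E m g p) {χ : I → E n → ℝ}
    (hχ : Part c.C χ) {ν : Measure M} (hM : VolM c.C c.G ν) (hs : ScGe c.G 1) {ρ : M → ℝ}
    (hdos : H691.DoSX c.C c.G ν 1 N ρ) {W : X → ℝ} (hW : H850.Sm c.C W)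
    (hWρ : ∀ x, ρ (c.C.π x) ≤ 1 / 2 * W x - lapX c.C c.G W x) (φ ψ : Core c.S) :
    ‖⟪c.E.e φ, (g ^ (2 * N + 2)) (c.E.e ψ)⟫_ℂ‖ ≤
      1 * (∫ x, √(W x) * nm c.C (φ : Raw Γ I n V) x ∂c.μ) *
        ∫ x, √(W x) * nm c.C (ψ : Raw Γ I n V) x ∂c.μ := by
  have hsy := H440.pow_symm (H440.g_symm hL hD hm.ne' hR) (N + 1)
  have hi : ∀ φ : Core c.S, 0 ≤ ∫ x, √(W x) * nm c.C (φ : Raw Γ I n V) x ∂c.μ := fun φ =>
    integral_nonneg fun x => mul_nonneg (Real.sqrt_nonneg _) (nm_nonneg _ _)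
  have h1 : ∀ φ : Core c.S, ‖(g ^ (N + 1)) (c.E.e φ)‖ ≤
      ∫ x, √(W x) * nm c.C (φ : Raw Γ I n V) x ∂c.μ := fun φ => by
    refine norm_le_core (c := c) (hi φ) fun ψ => ?_
    rw [hsy, ← inner_conj_symm, RCLike.norm_conj, mul_comm]
    exact wb_sqrt hL hD hn hm hm2 hR hχ hM hs hdos hW hWρ ψ φ
  have e1 : (g ^ (2 * N + 2)) (c.E.e ψ) = (g ^ (N + 1)) ((g ^ (N + 1)) (c.E.e ψ)) := by
    rw [show 2 * N + 2 = (N + 1) + (N + 1) by ring, pow_add]; rfl
  rw [e1, ← hsy, one_mul]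
  exact (norm_inner_le_norm _ _).trans (mul_le_mul (h1 φ) (h1 ψ) (norm_nonneg _) (hi φ))

end

end Vale.Agent.P223.H391
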