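import Vale.Agent.P223.H391.HX3
import Vale.Agent.P223.H316.Vp
import Vale.Agent.P223.H316.Uw2

/-! The pairing is bounded by the integral of the local density of states. -/

namespace Vale.Agent.P223.H391

open scoped ContDiff InnerProductSpace Topology
open MeasureTheory Filter Vale.Agent.P223.H Vale.Agent.P223.X Vale.Agent.P223.H566
  Vale.Agent.P223.H316
open Vale.Agent.P223.H66 (ScGe)

section
variable {n : ℕ} {M X Γ I : Type} [TopologicalSpace M] [TopologicalSpace X] [Group Γ]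
    [MulAction Γ X] [Fintype I] [T2Space X] [ConnectedSpace X] [T2Space M]
    {C : Cov n M X Γ I} {G : I → E n → Matrix (Fin n) (Fin n) ℝ}

omit [T2Space X] [ConnectedSpace X] [T2Space M] in
theorem wgt_of (hG : MetX C G) (hs : ScGe G 1) {W : X → ℝ} (hW : H850.Sm C W)
    (hW0 : ∀ x, 0 < W x) (h : ∀ x, 0 ≤ 1 / 2 * W x - lapX C G W x) : Wgt C G (1 / 2) W where
  smooth := hW.ck
  pos := hW0
  grad := Sm_grad hG hW hW0
  ineq γ i y := by
    have h1 := h (γ • C.ψ i y)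
    rw [Vale.Agent.P223.X.lapX_eq hG hW.c2] at h1
    have h2 := mul_le_mul_of_nonneg_right (hs i y) (hW0 (γ • C.ψ i y)).le
    linarith

omit [T2Space X] [ConnectedSpace X] [T2Space M] in
/-- the sum of the weights -/
theorem sum_wt [MeasurableSpace X] [BorelSpace X] [MeasurableSpace M] [BorelSpace M]
    {μ : Measure X} {ν : Measure M} {χ : I → E n → ℝ} (hG : MetX C G) (hV : VolX C G μ)
    (hM : VolM C G ν) (hχ : Part C χ) {W : X → ℝ} (hW : H850.Sm C W) :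
    ∑ i, ∫ x, W x * C.ex i (χ i) x ∂μ = ∫ m, C.dn W m ∂ν := by
  rw [IntM.integral_eq hG hM hχ fun i => (IntM.continuous_dn C hW.inv hW.cont).comp
    (IntM.β_emb C i).continuous]
  refine Finset.sum_congr rfl fun i _ => ?_
  rw [Int.integral_chart hG hV 1 i _ fun x hx => ?_]
  · refine integral_congr_ae (Filter.Eventually.of_forall fun y => ?_)
    simp only [one_smul, Vale.Agent.P223.X.ex_ψ, IntM.dn_β C hW.inv]
    ring
  · unfold Cov.ex
    rw [if_neg, mul_zero]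
    intro h
    obtain ⟨y, rfl⟩ := h
    exact hx ⟨y, one_smul _ _⟩

end

/-- The pairing is bounded by the integral of the local density of states. -/
theorem specH (hB : Blk) (hEmb : SpecEmb) (hOps : SpecOps) (hT : H66.SpecTrB)
    (n d : ℕ) (hn : 3 ≤ n) (hd : 0 < d) : ∃ A : ℝ, 0 < A ∧
  ∀ (M X Γ I V : Type) [TopologicalSpace M] [TopologicalSpace X]
  [Group Γ] [MulAction Γ X] [Fintype I] [T2Space X] [ConnectedSpace X] [T2Space M]
  [MeasurableSpace X] [BorelSpace X] [MeasurableSpace M] [BorelSpace M]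
  [NormedAddCommGroup V] [InnerProductSpace ℂ V]
  [FiniteDimensional ℂ V] (C : Cov n M X Γ I) (G : I → E n → Matrix (Fin n) (Fin n) ℝ)
  (K : Cliff n V) (_ : SpX C G K) (μ : Measure X) (ν : Measure M) (P : PUX C I)
  (χ : I → E n → ℝ) (ρ : M → ℝ) (F : (Fin (n + 1) → Γ) → ℝ), Module.finrank ℂ V = d →
  P.φ = (fun i => C.ex i (χ i)) →
  (∀ i, C.Ck ∞ (P.φ i)) → VolX C G μ → VolM C G ν → Part C χ → ScGe G 1 → Continuous ρ →
  (∀ p, 0 ≤ ρ p) → H691.DoSX C G ν 1 n ρ → Coc F →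
  |∑ᶠ l ∈ {l : Fin (n + 1) → Γ × I | (l 0).1 = 1}, P.wt χ l * F (fun k => (l k).1)| ≤
    A * ∫ m, ρ m ∂ν := by
  have hn1 : 1 ≤ n := by omega
  obtain ⟨k, hk⟩ : ∃ k, k = k6 n + (n + 1) * (2 * n + 2) := ⟨_, rfl⟩
  have hk1 : k6 n ≤ k := by omega
  have hk2 : (n + 1) * (2 * n + 2) ≤ k := by omega
  have hk3 : (n + 1) * n ≤ k := by
    refine le_trans (Nat.mul_le_mul_left _ ?_) hk2
    omega
  set b : ℝ := H765.bK n k d with hb
  have hb0 : 0 < b := H765.bK_pos hd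
  set m : ℝ := √2 with hm
  have hm2 : m ^ 2 = 2 := Real.sq_sqrt (by norm_num)
  have hm0 : 0 < m := Real.sqrt_pos.2 (by norm_num)
  have hm1 : 1 ≤ m := by rw [hm]; exact Real.one_le_sqrt.2 (by norm_num)
  have hmK : 0 < m ^ (n + 2 + 2 * k) := pow_pos hm0 _
  set Q : ℝ := 12 * n + 3 with hQ
  have hQ1 : 1 ≤ Q := by
    have : (0 : ℝ) ≤ n := Nat.cast_nonneg n
    rw [hQ]; linarith
  set B : ℝ := b⁻¹ * (m ^ (n + 2 + 2 * k) * (((k : ℝ) + 1) ^ (n + 1) * 3 ^ (n + 1) *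
    Q ^ (k + (n + 1)) * (d * 1))) with hBd
  have hB0 : 0 < B := by
    have h1 : (0 : ℝ) < d := by exact_mod_cast hd
    have h2 : 0 < Q := by linarith
    positivity
  refine ⟨B * 2, by positivity, ?_⟩
  intro M X Γ I V _ _ _ _ _ _ _ _ _ _ _ _ _ _ _ C G K S μ ν P χ ρ F hV hPφ hPs hμ hν hχ hsc hρ
    hρ0 hdos hF
  have hPn : ∀ i x, 0 ≤ P.φ i x := fun i x => by
    rw [hPφ]
    change 0 ≤ C.ex i (χ i) x
    unfold Cov.ex
    split_ifs
    · exact hχ.nonneg _ _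
    · exact le_rfl
  obtain ⟨H, _, _, _, ⟨E⟩⟩ := hEmb n M X Γ I V C G K S μ hμ
  let c : Ctx n M X Γ I V H := ⟨C, G, K, S, μ, hμ, E⟩
  obtain ⟨hR, hO⟩ := hOps n M X Γ I V H c
  obtain ⟨a, h, W, hO⟩ := hO I P hPs
  choose g p hgp using fun m : Set.Ioi (0 : ℝ) => hR m.1 m.2
  let g' : ℝ → H →L[ℂ] H := fun m => if hm : 0 < m then g ⟨m, hm⟩ else 0
  let p' : ℝ → H →L[ℂ] H := fun m => if hm : 0 < m then p ⟨m, hm⟩ else 0
  have hgp' : ∀ m, 0 < m → Rsv c.E m (g' m) (p' m) := by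
    intro m hm
    simp only [g', p', dif_pos hm]
    exact hgp ⟨m, hm⟩
  have hRm := hgp' m hm0
  -- the bound for each `ε`
  suffices key : ∀ ε : ℝ, 0 < ε → |∑ᶠ l ∈ {l : Fin (n + 1) → Γ × I | (l 0).1 = 1},
      P.wt χ l * F (fun k => (l k).1)| ≤ B * (2 * (∫ m, ρ m ∂ν) + ε) by
    have hlim : Tendsto (fun ε : ℝ => B * (2 * (∫ m, ρ m ∂ν) + ε)) (𝓝[>] 0)
        (𝓝 (B * (2 * (∫ m, ρ m ∂ν) + 0))) :=
      (Continuous.tendsto (by fun_prop) 0).mono_left nhdsWithin_le_nhds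
    rw [add_zero, ← mul_assoc] at hlim
    refine ge_of_tendsto hlim ?_
    filter_upwards [self_mem_nhdsWithin] with ε hε using key ε hε
  intro ε hε
  obtain ⟨w, hw, hw0, hwρ, hwi⟩ := exists_W S.met hν hχ hρ hρ0 hε
  have hwg : Wgt C G (1 / 2) w := wgt_of S.met hsc hw hw0 fun x => (hρ0 _).trans (hwρ x)
  have hG := hwg.gst S.met
  set v : X → ℝ := fun x => √(w x) with hv
  have hv0 : ∀ x, 0 < v x := fun x => Real.sqrt_pos.2 (hw0 x)
  have hvc : Continuous v := hw.cont.sqrt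
  have hvi : ∀ (γ : Γ) x, v (γ • x) = v x := fun γ x => by simp only [hv, hw.inv]
  obtain ⟨b₁, hb₁, hvb⟩ := H191.exists_bd hvc hvi C
  obtain ⟨b₂, hb₂, hvl⟩ := exists_lb hvc hvi hv0 C
  have hvb' : ∀ x, v x ≤ b₁ + b₂⁻¹ ∧ (v x)⁻¹ ≤ b₁ + b₂⁻¹ := fun x => by
    have h1 : 0 < b₂⁻¹ := inv_pos.2 hb₂
    have h2 := (abs_le.1 (hvb x)).2
    have h3 : (v x)⁻¹ ≤ b₂⁻¹ := inv_anti₀ hb₂ (hvl x)
    exact ⟨by linarith, by linarith⟩
  obtain ⟨m₀, hm₀, hcont⟩ := cont hB n M X Γ I V H c I P a h W (-(1 / 2)) v F hn1 hO hG hF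
  -- the value
  have hlim := H765.asyX hB.hI hB.hL hB.hS hB.hAlg hB.hDec n M X Γ I V H c I P a h W g' p' χ F m₀
    hn1 hO hχ hF (fun m hm => hgp' m (hm₀.trans_le hm)) k hk3
  have hms : 0 < m ^ 2 + -(1 / 2 : ℝ) := by rw [hm2]; norm_num
  have hval : (m : ℂ) ^ (n + 2 + 2 * k) * rK a h W (g' m) F k = (b : ℂ) *
      ((∑ᶠ l ∈ {l : Fin (n + 1) → Γ × I | (l 0).1 = 1},
        P.wt χ l * F (fun i => (l i).1) : ℝ) : ℂ) := by
    have hc : Tendsto (fun m : ℝ => (m : ℂ) ^ (n + 2 + 2 * k) * rK a h W (g' m) F k) atTop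
        (𝓝 ((m : ℂ) ^ (n + 2 + 2 * k) * rK a h W (g' m) F k)) := by
      refine tendsto_const_nhds.congr' ?_
      filter_upwards [eventually_ge_atTop (max m₀ m)] with m' hm'
      have hm1 : m₀ ≤ m' := (le_max_left _ _).trans hm'
      exact (hcont m' (g' m') (p' m') hm1 (hgp' m' (hm₀.trans_le hm1)) m (g' m) (p' m)
        hm0 hms ((le_max_right _ _).trans hm') hRm).2 k hk1
    rw [hV] at hlim
    exact tendsto_nhds_unique hc hlim
  -- the bound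
  have hnuc := (hcont (max m₀ m) (g' (max m₀ m)) (p' (max m₀ m)) (le_max_left _ _)
    (hgp' _ (hm₀.trans_le (le_max_left _ _))) m (g' m) (p' m) hm0 hms
    (le_max_right _ _) hRm).1
  have hqg : (m ^ 2 + -(1 / 2 : ℝ))⁻¹ = 2 / 3 := by rw [hm2]; norm_num
  have hup := upperW hB hT n M X Γ I V H c I P a h W F hn1 hO hF hPn hG.smooth hv0 hvb'
    hm1 hRm hnuc (J := 2 * n + 2) (by omega) (qg := (m ^ 2 + -(1 / 2 : ℝ))⁻¹)
    (qp := 12 * n / m) (Q := Q) (kap := 1)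
    (op_g hB.hS c hn1 hG hm0 hms hRm)
    (fun b u hb hu => supPW hB.hL hB.hDe hn1 (fun i y => by
      have := hsc i y
      norm_num
      linarith) hwg hm0 (by rw [hm2]; norm_num) hRm hb hu)
    hQ1 (by
      rw [hqg, hQ]
      have : (0 : ℝ) ≤ n := Nat.cast_nonneg n
      linarith) (by
      have h1 : (0 : ℝ) ≤ n := Nat.cast_nonneg n
      have h2 : 12 * (n : ℝ) / m ≤ 12 * n / 1 := div_le_div_of_nonneg_left (by positivity) one_pos hm1
      rw [hQ]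
      linarith) (by
      rw [hqg, hQ, hm2]
      have : (0 : ℝ) ≤ n := Nat.cast_nonneg n
      linarith) zero_le_one
    (kerW hB.hL hB.hDe hn1 hm0 (by rw [hm2]; norm_num) hRm hχ hν hsc hdos hw hwρ)
    (K := k) hk2
  have hsum : ∑ i, ∫ x, v x ^ 2 * P.φ i x ∂μ = ∫ m, C.dn w m ∂ν := by
    rw [← sum_wt S.met hμ hν hχ hw]
    refine Finset.sum_congr rfl fun i _ => ?_
    refine integral_congr_ae (Filter.Eventually.of_forall fun x => ?_)
    simp only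
    rw [hPφ, hv, Real.sq_sqrt (hw0 x).le]
  set Sg : ℝ := ∑ᶠ l ∈ {l : Fin (n + 1) → Γ × I | (l 0).1 = 1},
        P.wt χ l * F (fun i => (l i).1) with hSg
  have hup2 : b * |Sg| ≤ m ^ (n + 2 + 2 * k) * (((k : ℝ) + 1) ^ (n + 1) * 3 ^ (n + 1) *
      Q ^ (k + (n + 1)) * (d * 1 * ∫ m, C.dn w m ∂ν)) := by
    have e1 : b * |Sg| = ‖(m : ℂ) ^ (n + 2 + 2 * k) * rK a h W (g' m) F k‖ := by
      rw [hval, norm_mul, Complex.norm_real, Complex.norm_real, Real.norm_of_nonneg hb0.le,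
        Real.norm_eq_abs]
    rw [e1, norm_mul, norm_pow, Complex.norm_real, Real.norm_of_nonneg hm0.le, ← hsum, ← hV]
    exact mul_le_mul_of_nonneg_left hup hmK.le
  rw [← le_div_iff₀' hb0] at hup2
  refine hup2.trans (le_trans (le_of_eq ?_) (mul_le_mul_of_nonneg_left hwi hB0.le))
  rw [hBd, div_eq_inv_mul]
  ring

end Vale.Agent.P223.H391
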