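import Vale.Agent.P223.H566.NV
import Vale.Agent.P223.H391.Grd
import Vale.Agent.P223.H440.Fin5

/-! BLOCK V8: Theorem V from the Sobolev inequality. -/

namespace Vale.Agent.P223.H391

open scoped ContDiff Topology ENNReal NNReal
open MeasureTheory Set Vale.Agent.P223.H Vale.Agent.P223.X Vale.Agent.P223.H566
  Vale.Agent.P223.H440
open Vale.Agent.P223.H66 (ScGe SobX Vl scX YamX HS hS_of scal_eq)

section
variable {n : ℕ} {M X : Type} [TopologicalSpace M] [TopologicalSpace X] {c : M → J.Ch n M}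
  {c' : X → J.Ch n X} {f : X → M} {g : M → J.Mtx n}

/-- charts of the covering -/
theorem symm_cov (hf : J.CovAtl c f c') (a : X) {x : E n} (hx : x ∈ (c' a).target) :
    x ∈ (c (f a)).target ∧ f ((c' a).symm x) = (c (f a)).symm x := by
  have h1 := (c' a).map_target hx
  obtain ⟨h2, h3⟩ := hf.eq a _ h1
  rw [(c' a).right_inv hx] at h3
  refine ⟨by rw [h3]; exact (c (f a)).map_source h2, ?_⟩
  conv_rhs => rw [h3]
  rw [(c (f a)).left_inv h2]

theorem lip1_cov (hf : J.CovAtl c f c') {r : M → ℝ} (h : J.Lip1 c g r) :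
    J.Lip1 c' (fun q => g (f q)) fun q => r (f q) := by
  constructor
  · intro a
    refine ContDiffOn.congr ((h.1 (f a)).mono fun x hx => (symm_cov hf a hx).1) fun x hx => ?_
    simp only
    rw [(symm_cov hf a hx).2]
  · intro q
    have h1 := h.2 (f q)
    have h2 := (hf.eq q q (hf.mem q)).2
    have h3 : (fun x => r (f ((c' q).symm x))) =ᶠ[𝓝 (c' q q)] fun x => r ((c (f q)).symm x) := by
      filter_upwards [(c' q).open_target.mem_nhds ((c' q).map_source (hf.mem q))] with x hx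
      rw [(symm_cov hf q hx).2]
    simp only
    rw [gsq_congr' h3, h2]
    exact h1

end

/-- multiplication of the Sobolev inequality by a number `≤ 1` -/
theorem sobXW_scale {n : ℕ} {M X Γ I : Type} [TopologicalSpace M] [TopologicalSpace X]
    [Group Γ] [MulAction Γ X] [Fintype I] [T2Space X] [ConnectedSpace X] [T2Space M]
    [MeasurableSpace X] [BorelSpace X] {C : Cov n M X Γ I}
    {G : I → E n → Matrix (Fin n) (Fin n) ℝ} {μ : Measure X}
    (hG : MetX C G) (hV : VolX C G μ) {k k' : X → ℝ} (hk : Continuous k) (hk' : Continuous k')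
    {t : ℝ} (ht0 : 0 ≤ t) (ht : t ≤ 1) (h : ∀ x, t * k x ≤ k' x) {y : ℝ}
    (hS : H691.SobXW C G μ k y) : H691.SobXW C G μ k' (y * t) := by
  intro f hf
  have h1 := mul_le_mul_of_nonneg_left (hS f hf) ht0
  obtain ⟨hf1, hf2⟩ := hf
  have hfin := finComp hG hV
  have fc : Continuous f := Ck_continuous C fun γ i => (hf1 γ i).of_le (by simp)
  obtain ⟨g1, g1'⟩ := H440.gsX_supp' hG hf1 hf2
  have i1 : Integrable (gsX C G f) μ := g1.integrable_of_hasCompactSupport g1'
  have i2 : ∀ k : X → ℝ, Continuous k → Integrable (fun x => k x * f x ^ 2) μ := fun k hk => by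
    refine (hk.mul (fc.pow 2)).integrable_of_hasCompactSupport
      (HasCompactSupport.intro hf2.isCompact fun x hx => ?_)
    simp [image_eq_zero_of_notMem_tsupport hx]
  rw [← integral_const_mul] at h1
  have h2 := h1.trans (integral_mono ((i1.add (i2 k hk)).const_mul t) (i1.add (i2 k' hk'))
    fun x => by
      have a1 := gsX_nonneg hG f x
      have a2 := mul_le_mul_of_nonneg_right (h x) (sq_nonneg (f x))
      have a3 := mul_le_mul_of_nonneg_right ht a1
      simp only [Pi.add_apply]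
      nlinarith)
  refine le_trans (le_of_eq ?_) h2
  ring

/-- BLOCK V8 -/
theorem specV (hS : NV.SpecSobV) : NV.SpecV := by
  intro n hn
  have hn3 : (3 : ℝ) ≤ n := by exact_mod_cast hn
  obtain ⟨A, hA⟩ := exists_A hn
  obtain ⟨y₁, C₁, hy₁, hC₁, hR⟩ := hS n hn
  have hcU := cU_pos hA.1 hn
  set C : ℝ := max C₁ 1 with hC
  have hC1 : 1 ≤ C := le_max_right _ _
  have hC0 : 0 < C := by linarith
  have hCC : C₁ ≤ C := le_max_left _ _
  set a : ℝ := (C / y₁) ^ ((n : ℝ) / 2) with ha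
  have ha0 : 0 < a := Real.rpow_pos_of_pos (div_pos hC0 hy₁) _
  refine ⟨cU n A * a, mul_pos hcU ha0, ?_⟩
  intro M _ _ _ _ _ _ c hc hsp g g₁ ν r K ε hg hν hg₁ hr hr0 hinj hK hb hε hε1
  have hK0 : 0 < K := by linarith
  have hu := Vale.Agent.P223.X.hu
  obtain ⟨d⟩ := FinalM.exists_data hu (by omega) c hc
  have hM := hu.met n M d.X d.Γ d.I c d.B d.C hc d.hCB
  have hm := hM.1 g hg
  let _ : MeasurableSpace d.X := borel d.X
  have : BorelSpace d.X := ⟨rfl⟩
  obtain ⟨-, ⟨μX, hμX⟩, -⟩ := Vale.Agent.P223.X.hb.vol n M d.X d.Γ d.I d.C (d.B.G g) hm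
  obtain ⟨-, ⟨μ₁, hμ₁⟩, -⟩ := Vale.Agent.P223.X.hb.vol n M d.X d.Γ d.I d.C (d.B.G g₁)
    (hM.1 g₁ hg₁)
  have hπ : Continuous d.C.π := (IntM.isQuotientMap_π d.C).continuous
  have hrc : Continuous r := Sm_cont hc hr.1
  -- the Sobolev inequality for `g₁`
  obtain ⟨c', hf⟩ := H691.UY.exists_covAtl hc d.C
  have hc' := H441.Par.atl_of_cov hc hf
  have hg₁' := H441.Par.met_of_cov hg₁ hf
  have hW := hR d.X c' (fun q => g₁ (d.C.π q)) (fun q => r (d.C.π q)) hc' hg₁' (lip1_cov hf hr)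
    fun q => ⟨hr0 _, hinj d.X _ d.C.π c' d.sc hf q⟩
  have hW1 : H691.SobXW d.C (d.B.G g₁) μ₁ (fun x => C₁ / r (d.C.π x) ^ 2) y₁ := by
    intro u hu'
    have h := hW _ inferInstance μ₁ (H691.UY.vol hc d.hCB hg₁ hf hμ₁) u
      (H691.UY.sm hc d.hCB hf hu'.1) hu'.2
    refine h.trans (le_of_eq (integral_congr_ae (ae_of_all _ fun q => ?_)))
    simp only [H691.UY.gsq_eq hc d.hCB hg₁ hf hu'.1 q]
  -- the potential `ε / r²`
  have hk : Continuous fun x => ε / r (d.C.π x) ^ 2 :=
    continuous_const.div ((hrc.comp hπ).pow 2) fun x => (pow_pos (hr0 _) 2).ne'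
  have hW2 : H691.SobXW d.C (d.B.G g₁) μ₁ (fun x => ε / r (d.C.π x) ^ 2) (y₁ * (ε / C)) := by
    refine sobXW_scale (hM.1 g₁ hg₁) hμ₁ (continuous_const.div ((hrc.comp hπ).pow 2)
      fun x => (pow_pos (hr0 _) 2).ne') hk (by positivity) (by rw [div_le_one hC0]; linarith)
      (fun x => ?_) hW1
    have hx : 0 < r (d.C.π x) ^ 2 := pow_pos (hr0 _) 2
    change ε / C * (C₁ / r (d.C.π x) ^ 2) ≤ ε / r (d.C.π x) ^ 2
    rw [div_mul_div_comm, div_le_div_iff₀ (by positivity) hx]
    have h1 : C₁ * (ε * r (d.C.π x) ^ 2) ≤ C * (ε * r (d.C.π x) ^ 2) :=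
      mul_le_mul_of_nonneg_right hCC (by positivity)
    nlinarith
  have hW3 := H441.Bil.sob0_of_bil hn hc d.hCB hg₁ hg hμ₁ hμX hb hK
    (mul_pos hy₁ (div_pos hε hC0)) hk (fun x => by have := hr0 (d.C.π x); positivity) hW2
  -- Theorem U
  have hsc := cont_scal hc (by omega) hg
  set β : M → ℝ := fun p => max 0 (ε / r p ^ 2 - max 0 (J.scal (g p) (c p p))) with hβ
  have hβc : Continuous β := continuous_const.max ((continuous_const.div (hrc.pow 2)
    fun p => (pow_pos (hr0 p) 2).ne').sub (continuous_const.max hsc))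
  have h4 := sv_U hA hn hc d (hS_of hc d hsp) hg hν hμX le_rfl
    (div_pos (mul_pos hy₁ (div_pos hε hC0)) (pow_pos hK0 n)) hβc (fun p => le_max_left _ _)
    (H441.Bil.sobXW_mono hm hμX hk
      ((continuous_const.mul (continuous_const.max (scX_cont' hm))).add (hβc.comp hπ))
      (fun x => by
        change ε / r (d.C.π x) ^ 2 ≤ 1 * max 0 (scX d.C (d.B.G g) x) + β (d.C.π x)
        rw [H691.scX_eq hc d.hCB hg, hβ]
        simp only
        have := le_max_right 0 (ε / r (d.C.π x) ^ 2 -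
          max 0 (J.scal (g (d.C.π x)) (c (d.C.π x) (d.C.π x))))
        linarith) hW3)
  have e1 : (fun p => J.sn c g p + β p) =
      fun p => max 0 (ε / r p ^ 2 - J.scal (g p) (c p p)) := by
    funext p
    have hp : 0 < ε / r p ^ 2 := div_pos hε (pow_pos (hr0 p) 2)
    change max 0 (-J.scal (g p) (c p p)) + max 0 (ε / r p ^ 2 - max 0 (J.scal (g p) (c p p))) = _
    rcases le_total 0 (J.scal (g p) (c p p)) with h | h
    · rw [max_eq_left (by linarith : -J.scal (g p) (c p p) ≤ 0), max_eq_right h, zero_add]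
    · rw [max_eq_right (by linarith : 0 ≤ -J.scal (g p) (c p p)), max_eq_left h, sub_zero,
        max_eq_right hp.le, max_eq_right (by linarith)]
      ring
  rw [e1] at h4
  refine h4.trans (mul_le_mul_left (ENNReal.ofReal_le_ofReal (le_of_eq ?_)) _)
  have e2 : 1 / (y₁ * (ε / C) / K ^ n) = C / y₁ * (K ^ n * ε⁻¹) := by field_simp
  rw [e2, Real.mul_rpow (by positivity) (by positivity), Real.mul_rpow (by positivity)
    (by positivity), ← Real.rpow_natCast K n, ← Real.rpow_mul hK0.le, Real.inv_rpow hε.le, neg_div,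
    Real.rpow_neg hε.le, ← ha]
  rw [show (n : ℝ) * ((n : ℝ) / 2) = (n : ℝ) ^ 2 / 2 by ring]
  ring

end Vale.Agent.P223.H391
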