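import Vale.Agent.P223.H391.Wg
import Vale.Agent.P223.H391.V8

/-! Theorem W: Sobolev inequalities in balls of the universal covering. -/

namespace Vale.Agent.P223.H391

open scoped ContDiff Topology ENNReal NNReal
open MeasureTheory Set Vale.Agent.P223.H Vale.Agent.P223.X Vale.Agent.P223.H566
  Vale.Agent.P223.H440
open Vale.Agent.P223.H66 (ScGe SobX Vl scX YamX HS hS_of scal_eq)

/-- Theorem W -/
def SpecW : Prop := ∀ n : ℕ, 3 ≤ n → ∃ A : ℝ, 0 < A ∧
    ∀ (M : Type) [TopologicalSpace M] [CompactSpace M] [T2Space M] [ConnectedSpace M]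
      [MeasurableSpace M] [BorelSpace M] (c : M → J.Ch n M), J.Atl c →
      (∃ g₀, J.Met c g₀ ∧ J.CovSpin c g₀) →
      ∀ (g g₁ : M → J.Mtx n) (μ : Measure M) (r β : M → ℝ) (K T y ε : ℝ), J.Met c g →
      J.Vol c g μ → J.Met c g₁ → 1 ≤ K → J.Bil c g₁ g K → Continuous r → (∀ p, 0 < r p) →
      Continuous β → (∀ p, 0 ≤ β p) → 1 ≤ T → 0 < y → y ≤ 1 →
      J.UCSobAt c g₁ (fun p => T * max 0 (J.scal (g p) (c p p)) + β p) y r →
      0 < ε → ε ≤ 1 →
      J.sv c ≤ ENNReal.ofReal (A * K ^ ((n : ℝ) ^ 2 / 2) * (T / (y * ε)) ^ ((n : ℝ) / 2)) *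
        J.L n μ (fun p => max 0 (ε * (β p + 1 / r p ^ 2) - J.scal (g p) (c p p)))

theorem specW : SpecW := by
  intro n hn
  have hn3 : (3 : ℝ) ≤ n := by exact_mod_cast hn
  obtain ⟨A, hA⟩ := exists_A hn
  obtain ⟨c₂, hc₂, hR⟩ := W.sobW n hn
  have hcU := cU_pos hA.1 hn
  set a : ℝ := (2 / c₂) ^ ((n : ℝ) / 2) with ha
  have ha0 : 0 < a := Real.rpow_pos_of_pos (by positivity) _
  refine ⟨cU n A * a, mul_pos hcU ha0, ?_⟩
  intro M _ _ _ _ _ _ c hc hsp g g₁ ν r β K T y ε hg hν hg₁ hK hb hrc hr0 hβ hβ0 hT hy hy1 hS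
    hε hε1
  have hK0 : 0 < K := by linarith
  have hu := Vale.Agent.P223.X.hu
  obtain ⟨d⟩ := FinalM.exists_data hu (by omega) c hc
  have hM := hu.met n M d.X d.Γ d.I c d.B d.C hc d.hCB
  have hm := hM.1 g hg
  let _ : MeasurableSpace d.X := borel d.X
  have : BorelSpace d.X := ⟨rfl⟩
  obtain ⟨-, ⟨μX, hμX⟩, -⟩ := Vale.Agent.P223.X.hb.vol n M d.X d.Γ d.I d.C (d.B.G g) hm
  obtain ⟨-, ⟨μ₁, hμ₁⟩, -⟩ := Vale.Agent.P223.X.hb.vol n M d.X d.Γ d.I d.C (d.B.G g₁)
    (hM.1 g₁ hg₁)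
  have hπ : Continuous d.C.π := (IntM.isQuotientMap_π d.C).continuous
  have hsc := cont_scal hc (by omega) hg
  set k : M → ℝ := fun p => T * max 0 (J.scal (g p) (c p p)) + β p with hk
  have hkc : Continuous k := (continuous_const.mul (continuous_const.max hsc)).add hβ
  have hk0 : ∀ p, 0 ≤ k p := fun p =>
    add_nonneg (mul_nonneg (by linarith) (le_max_left _ _)) (hβ0 p)
  have hr2 : Continuous fun p => 1 / r p ^ 2 :=
    continuous_const.div (hrc.pow 2) fun p => (pow_pos (hr0 p) 2).ne'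
  -- the Sobolev inequality for `g₁`
  obtain ⟨c', hf⟩ := H691.UY.exists_covAtl hc d.C
  have hc' := H441.Par.atl_of_cov hc hf
  have hg₁' := H441.Par.met_of_cov hg₁ hf
  have hW := hR d.X c' (fun q => g₁ (d.C.π q)) (fun q => k (d.C.π q)) (fun q => r (d.C.π q)) y
    hc' hg₁' (hkc.comp hπ) (fun q => hk0 _) (hrc.comp hπ) (fun q => hr0 _) hy hy1
    (hS d.X _ d.C.π c' d.sc hf)
  have hW1 : H691.SobXW d.C (d.B.G g₁) μ₁ (fun x => k (d.C.π x) + 1 / r (d.C.π x) ^ 2)
      (c₂ * y) := by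
    intro u hu'
    have h := hW _ inferInstance μ₁ (H691.UY.vol hc d.hCB hg₁ hf hμ₁) u
      (H691.UY.sm hc d.hCB hf hu'.1) hu'.2
    refine h.trans (le_of_eq (integral_congr_ae (ae_of_all _ fun q => ?_)))
    simp only [H691.UY.gsq_eq hc d.hCB hg₁ hf hu'.1 q]
  -- multiplication by `ε`
  have hk1 : Continuous fun x => k (d.C.π x) + 1 / r (d.C.π x) ^ 2 :=
    (hkc.comp hπ).add (hr2.comp hπ)
  have hk2 : Continuous fun x => ε * (k (d.C.π x) + 1 / r (d.C.π x) ^ 2) :=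
    continuous_const.mul hk1
  have hW2 : H691.SobXW d.C (d.B.G g₁) μ₁ (fun x => ε * (k (d.C.π x) + 1 / r (d.C.π x) ^ 2))
      (c₂ * y * ε) :=
    sobXW_scale (hM.1 g₁ hg₁) hμ₁ hk1 hk2 hε.le hε1 (fun x => le_rfl) hW1
  have hW3 := H441.Bil.sob0_of_bil hn hc d.hCB hg₁ hg hμ₁ hμX hb hK
    (mul_pos (mul_pos hc₂ hy) hε) hk2 (fun x => by
      have := hr0 (d.C.π x)
      have := hk0 (d.C.π x)
      positivity) hW2
  -- Theorem U
  set β' : M → ℝ := fun p => max 0 (ε * (β p + 1 / r p ^ 2) - max 0 (J.scal (g p) (c p p)))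
    with hβ'
  have hβc : Continuous β' := continuous_const.max ((continuous_const.mul (hβ.add hr2)).sub
    (continuous_const.max hsc))
  have h4 := sv_U hA hn hc d (hS_of hc d hsp) hg hν hμX (T := T + 1) (by linarith)
    (div_pos (mul_pos (mul_pos hc₂ hy) hε) (pow_pos hK0 n)) hβc (fun p => le_max_left _ _)
    (H441.Bil.sobXW_mono hm hμX hk2
      ((continuous_const.mul (continuous_const.max (scX_cont' hm))).add (hβc.comp hπ))
      (fun x => by
        change ε * (k (d.C.π x) + 1 / r (d.C.π x) ^ 2) ≤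
          (T + 1) * max 0 (scX d.C (d.B.G g) x) + β' (d.C.π x)
        rw [H691.scX_eq hc d.hCB hg, hβ', hk]
        simp only
        set S := max 0 (J.scal (g (d.C.π x)) (c (d.C.π x) (d.C.π x))) with hSd
        have h1 := le_max_right 0 (ε * (β (d.C.π x) + 1 / r (d.C.π x) ^ 2) - S)
        have h2 : 0 ≤ S := le_max_left _ _
        have h3 : ε * (T * S) ≤ T * S := mul_le_of_le_one_left (by positivity) hε1
        have h4 : ε * (T * S + β (d.C.π x) + 1 / r (d.C.π x) ^ 2) =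
          ε * (T * S) + ε * (β (d.C.π x) + 1 / r (d.C.π x) ^ 2) := by ring
        rw [h4]
        linarith) hW3)
  have e1 : (fun p => J.sn c g p + β' p) =
      fun p => max 0 (ε * (β p + 1 / r p ^ 2) - J.scal (g p) (c p p)) := by
    funext p
    have hp : 0 ≤ ε * (β p + 1 / r p ^ 2) := by
      have := hr0 p
      have := hβ0 p
      positivity
    change max 0 (-J.scal (g p) (c p p)) +
      max 0 (ε * (β p + 1 / r p ^ 2) - max 0 (J.scal (g p) (c p p))) = _
    rcases le_total 0 (J.scal (g p) (c p p)) with h | h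
    · rw [max_eq_left (by linarith : -J.scal (g p) (c p p) ≤ 0), max_eq_right h, zero_add]
    · rw [max_eq_right (by linarith : 0 ≤ -J.scal (g p) (c p p)), max_eq_left h, sub_zero,
        max_eq_right hp, max_eq_right (by linarith)]
      ring
  rw [e1] at h4
  refine h4.trans (mul_le_mul_left (ENNReal.ofReal_le_ofReal ?_) _)
  have e2 : (T + 1) / (c₂ * y * ε / K ^ n) ≤ 2 / c₂ * (K ^ n * (T / (y * ε))) := by
    calc (T + 1) / (c₂ * y * ε / K ^ n) ≤ (2 * T) / (c₂ * y * ε / K ^ n) := by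
          gcongr
          linarith
      _ = _ := by field_simp
  calc cU n A * ((T + 1) / (c₂ * y * ε / K ^ n)) ^ ((n : ℝ) / 2)
      ≤ cU n A * (2 / c₂ * (K ^ n * (T / (y * ε)))) ^ ((n : ℝ) / 2) := by gcongr
    _ = cU n A * a * K ^ ((n : ℝ) ^ 2 / 2) * (T / (y * ε)) ^ ((n : ℝ) / 2) := by
        rw [Real.mul_rpow (by positivity) (by positivity), Real.mul_rpow (by positivity)
          (by positivity), ← Real.rpow_natCast K n, ← Real.rpow_mul hK0.le, ← ha,
          show (n : ℝ) * ((n : ℝ) / 2) = (n : ℝ) ^ 2 / 2 by ring]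
        ring

end Vale.Agent.P223.H391
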